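import Vale.Agent.N186.Torsion
import Vale.Agent.N186.Area

/-! An amalgam of two copies of `T * F` with prescribed three-syllable relations. -/

set_option linter.all false

namespace Vale.Agent.N186X

open Monoid Vale.Agent.N186

section sys

variable {ι : Type} {M : ι → Type} [∀ i, Group (M i)] {i₀ i₁ : ι} (hne : i₀ ≠ i₁)
  (t : M i₀) (y : M i₁) (ht : ¬ IsOfFinOrder t) (hy : y ≠ 1)

include hne ht hy in
theorem exists_sys3 {Λ : Type} [Finite Λ] (a b : Λ → M i₁) (σ : Λ → M i₀) (ha : ∀ l, a l ≠ 1)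
    (hb : ∀ l, b l ≠ 1) (hσ : ∀ l, σ l = t ∨ σ l ∉ Subgroup.zpowers t) :
    ∃ S : Sys M Λ, ∀ l, ∃ m₁ m₂ m₃ m₄ : ℤ, ev (S.z (l, true)) =
      (CoprodI.of t : CoprodI M) ^ m₁ * CoprodI.of y * CoprodI.of t ^ m₂ *
        (CoprodI.of (a l) * CoprodI.of (σ l) * (CoprodI.of (b l))⁻¹) *
        (CoprodI.of t ^ m₃ * (CoprodI.of y)⁻¹ * CoprodI.of t ^ m₄) := by
  have hi : Function.Injective fun n : ℤ => t ^ n := injective_zpow_iff_not_isOfFinOrder.2 ht
  have hx : Function.Injective fun n : ℤ => (t ^ (2 : ℤ)) ^ n := by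
    intro m n h
    have : 2 * m = 2 * n := hi (by simpa only [← zpow_mul] using h)
    omega
  have h1 : ∀ l, σ l ≠ 1 := by
    intro l h
    rcases hσ l with h2 | h2
    · exact ht (by rw [← h2, h]; exact IsOfFinOrder.one)
    · exact h2 (by rw [h]; exact one_mem _)
  have h2 : ∀ l (n : ℤ), σ l ≠ (t ^ (2 : ℤ)) ^ n := by
    intro l n h
    rw [← zpow_mul] at h
    rcases hσ l with h2 | h2
    · have : (1 : ℤ) = 2 * n := hi (by simpa only [zpow_one, h2] using h)
      omega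
    · exact h2 ⟨_, h.symm⟩
  obtain ⟨c, hc⟩ := Countable.exists_injective_nat (Λ × Bool)
  refine ⟨{ i₀ := i₀, i₁ := i₁, ne := hne, x := t ^ (2 : ℤ), y := y, xinj := hx, yne := hy, c := c,
            cinj := hc, τ := fun ξ => cond ξ.2 (a ξ.1) (b ξ.1), τne := ?_,
            σ := fun ξ => ⟨i₀, cond ξ.2 (σ ξ.1) (σ ξ.1)⁻¹⟩, σflip := ?_, σ1 := fun _ => hne,
            σne := ?_, σodd := ?_ }, ?_⟩
  · rintro ⟨l, _ | _⟩
    · exact hb _
    · exact ha _
  · rintro ⟨l, _ | _⟩
    · show (⟨i₀, σ l⟩ : Σ i, M i) = ⟨i₀, (σ l)⁻¹⁻¹⟩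
      rw [inv_inv]
    · rfl
  · rintro ⟨l, _ | _⟩
    · exact inv_ne_one.2 (h1 _)
    · exact h1 _
  · rintro ⟨l, _ | _⟩ n h
    · have h3 : (σ l)⁻¹ = (t ^ (2 : ℤ)) ^ (2 * n + 1) := eq_of_heq (Sigma.mk.inj_iff.1 h).2
      apply h2 l (-(2 * n + 1))
      rw [zpow_neg, ← h3, inv_inv]
    · exact h2 l _ (eq_of_heq (Sigma.mk.inj_iff.1 h).2)
  · intro l
    refine ⟨2 * (2 * (c (l, true) : ℤ) + 2), 2 * (2 * (c (l, true) : ℤ) + 1),
      2 * -(2 * (c (l, false) : ℤ) + 1), 2 * -(2 * (c (l, false) : ℤ) + 2), ?_⟩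
    simp only [Sys.z, Sys.body, Sys.X, Sys.Y, Sys.h, Sys.a, fl, List.cons_append, List.nil_append,
      ev_cons, ev_nil, map_zpow, map_inv, zpow_mul, cond_true, Bool.not_true, cond_false, mul_one,
      mul_assoc]

end sys

/-- two factors -/
def Two (T F : Type) : Bool → Type
  | false => T
  | true => F

/-- their group structures -/
@[reducible] def twoGroup (T F : Type) [hT : Group T] [hF : Group F] : ∀ i, Group (Two T F i)
  | false => hT
  | true => hF

theorem amalg (T F : Type) [Group T] [Group F] (PT : LinPres T) (PF : LinPres F) (t : T) (y : F)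
    (ht : ¬ IsOfFinOrder t) (hy : y ≠ 1) {Λ : Type} [Finite Λ] (a b : Bool → Λ → F)
    (σ : Bool → Λ → T) (ha : ∀ s l, a s l ≠ 1) (hb : ∀ s l, b s l ≠ 1)
    (hσ : ∀ s l, σ s l = t ∨ σ s l ∉ Subgroup.zpowers t) :
    ∃ (Γ : Type) (_ : Group Γ) (j : Bool → T →* Γ) (k : Bool → F →* Γ), Nonempty (LinPres Γ) ∧
      (∀ s, Function.Injective (j s)) ∧ (∀ s, Function.Injective (k s)) ∧
      (∀ U : Subgroup Γ, (∀ s g, j s g ∈ U) → (∀ s g, k s g ∈ U) → U = ⊤) ∧
      (∀ l, ∃ (m₁ m₂ m₃ m₄ : Bool → ℤ) (B : Γ), ∀ s, B =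
        j s t ^ m₁ s * k s y * j s t ^ m₂ s * (k s (a s l) * j s (σ s l) * (k s (b s l))⁻¹) *
          (j s t ^ m₃ s * (k s y)⁻¹ * j s t ^ m₄ s)) ∧
      (∀ (Q : Type) [Group Q] (p : F →* Q), p y = 1 →
        (∀ l, p (a true l) * (p (b true l))⁻¹ = p (a false l) * (p (b false l))⁻¹) →
        ∃ π : Γ →* Q, (∀ s g, π (j s g) = 1) ∧ ∀ s g, π (k s g) = p g) ∧
      ∀ g : Γ, IsOfFinOrder g → (∃ s c, IsConj (j s c) g) ∨ ∃ s c, IsConj (k s c) g := by
  letI := twoGroup T F
  let P : ∀ i, LinPres (Two T F i) := fun i => match i with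
    | false => PT
    | true => PF
  choose S hS using fun s => exists_sys3 (M := Two T F) (i₀ := false) (i₁ := true) (by simp) t y ht hy
    (a s) (b s) (σ s) (ha s) (hb s) (hσ s)
  choose m₁ m₂ m₃ m₄ hm using hS
  let j : Bool → T →* PO S := fun s => (sd S s).comp (CoprodI.of (M := Two T F) (i := false))
  let k : Bool → F →* PO S := fun s => (sd S s).comp (CoprodI.of (M := Two T F) (i := true))
  refine ⟨PO S, inferInstance, j, k, ?_, ?_, ?_, ?_, ?_, ?_, ?_⟩
  · exact linPres_of_dehn (N := fun k : Bool × Bool => Two T F k.2) (fun k => P k.2) (proj S)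
      (proj_surj S) (Moves S) (moves_finite S) (moves_len S) (moves_val S) (moves_dehn S)
  · intro s
    exact (sd_inj S s).comp (CoprodI.of_injective (M := Two T F) false)
  · intro s
    exact (sd_inj S s).comp (CoprodI.of_injective (M := Two T F) true)
  · intro U h1 h2
    rw [eq_top_iff]
    intro g _
    obtain ⟨w, rfl⟩ := proj_surj S g
    induction w using CoprodI.induction_on with
    | one => rw [map_one]; exact one_mem _
    | of i c =>
      obtain ⟨s, _ | _⟩ := i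
      · exact h1 s c
      · exact h2 s c
    | mul u v hu hv => rw [map_mul]; exact mul_mem (hu trivial) (hv trivial)
  · intro l
    refine ⟨fun s => m₁ s l, fun s => m₂ s l, fun s => m₃ s l, fun s => m₄ s l,
      bs S (FreeGroup.mk [(l, true)]), fun s => ?_⟩
    rw [← sd_z S s, hm]
    simp only [map_mul, map_zpow, map_inv]
    rfl
  · intro Q _ p hp h
    let f : ∀ i, Two T F i →* Q := fun i => match i with
      | false => (1 : T →* Q)
      | true => p
    let p' : CoprodI (Two T F) →* Q := CoprodI.lift f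
    have e0 : ∀ g : T, p' (CoprodI.of (M := Two T F) (i := false) g) = 1 := fun g =>
      CoprodI.lift_of f (i := false) g
    have e1 : ∀ g : F, p' (CoprodI.of (M := Two T F) (i := true) g) = p g := fun g =>
      CoprodI.lift_of f (i := true) g
    have e2 : ∀ s l, p' (ev ((S s).z (l, true))) = p (a s l) * (p (b s l))⁻¹ := by
      intro s l
      rw [hm]
      simp only [map_mul, map_zpow, map_inv, e0, e1, hp, one_zpow, one_mul, mul_one, inv_one]
    have e3 : ∀ s, p'.comp (Φ S s) = p'.comp (Φ S true) := by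
      intro s
      ext l
      have e4 : ∀ s, Φ S s (FreeGroup.of l) = ev ((S s).z (l, true)) := fun s =>
        FreeGroup.lift_apply_of
      rw [MonoidHom.comp_apply, MonoidHom.comp_apply, e4, e4, e2, e2]
      cases s
      · exact (h l).symm
      · rfl
    refine ⟨PushoutI.lift (G := fun _ : Bool => CoprodI (Two T F)) (φ := Φ S) (fun _ => p')
      (p'.comp (Φ S true)) e3, fun s g => ?_, fun s g => ?_⟩
    · exact (PushoutI.lift_of (G := fun _ : Bool => CoprodI (Two T F)) (φ := Φ S) (fun _ => p')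
        (p'.comp (Φ S true)) e3 _).trans (e0 g)
    · exact (PushoutI.lift_of (G := fun _ : Bool => CoprodI (Two T F)) (φ := Φ S) (fun _ => p')
        (p'.comp (Φ S true)) e3 _).trans (e1 g)
  · intro g hg
    rcases torsion_po S g hg with h | ⟨s, ⟨_ | _, c⟩, h⟩
    · exact Or.inl ⟨true, 1, by rw [h, map_one]; exact IsConj.refl _⟩
    · exact Or.inl ⟨s, c, h⟩
    · exact Or.inr ⟨s, c, h⟩

end Vale.Agent.N186X
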