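import Mathlib.Algebra.Group.Subgroup.Lattice
import Mathlib.Combinatorics.SimpleGraph.Cayley
import Mathlib.Combinatorics.SimpleGraph.Metric

/-! P186: word-hyperbolic groups and residually finite groups. -/

namespace Vale.Agent.N186X

/-- `P` is the set of vertices of a geodesic (a shortest edge path) from `x` to `y` in `Γ`. -/
def IsSide {V : Type} (Γ : SimpleGraph V) (P : Set V) (x y : V) : Prop :=
  ∃ p : Γ.Walk x y, p.length = Γ.dist x y ∧ P = {v | v ∈ p.support}

/-- `G` is word-hyperbolic: for some finite generating set `S` there is `δ` such that in the Cayley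
graph each side of each geodesic triangle lies in the closed `δ`-neighbourhood of the union of the
other two sides. -/
def WordHyperbolic (G : Type) [Group G] : Prop :=
  ∃ (S : Finset G) (δ : ℕ), Subgroup.closure (S : Set G) = ⊤ ∧
    ∀ (x y z : G) (P Q R : Set G), IsSide (SimpleGraph.mulCayley (S : Set G)) P x y →
      IsSide (SimpleGraph.mulCayley (S : Set G)) Q y z →
      IsSide (SimpleGraph.mulCayley (S : Set G)) R z x →
      ∀ v ∈ P, ∃ w ∈ Q ∪ R, (SimpleGraph.mulCayley (S : Set G)).dist v w ≤ δ

/-- `G` is residually finite: every `g ≠ 1` has a nontrivial image in some finite group. -/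
def ResFinite (G : Type) [Group G] : Prop :=
  ∀ g : G, g ≠ 1 → ∃ (F : Type) (_ : Group F) (_ : Finite F) (φ : G →* F), φ g ≠ 1

end Vale.Agent.N186X
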