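import Mathlib.GroupTheory.FinitelyPresentedGroup
import Mathlib.GroupTheory.FreeGroup.CyclicallyReduced
import Vale.Agent.N186X.Amalg

/-! A Rips construction whose kernel is finitely generated and normally generated, inside itself,
by two copies of a given group. -/

set_option linter.all false

namespace Vale.Agent.N186X

open Monoid Vale.Agent.N186

theorem amalg2 (T F : Type) [Group T] [Group F] (PT : LinPres T) (PF : LinPres F) (t : T) (y : F)
    (ht : ¬ IsOfFinOrder t) (hy : y ≠ 1) {Λ₁ Λ₂ : Type} [Finite Λ₁] [Finite Λ₂] (a b : Λ₁ → F)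
    (σ : Λ₁ → T) (c : Λ₂ → F) (ha : ∀ l, a l ≠ 1) (hb : ∀ l, b l ≠ 1) (hc : ∀ l, c l ≠ 1)
    (hσ : ∀ l, σ l = t ∨ σ l ∉ Subgroup.zpowers t) :
    ∃ (Γ : Type) (_ : Group Γ) (j : Bool → T →* Γ) (k : Bool → F →* Γ), Nonempty (LinPres Γ) ∧
      (∀ s, Function.Injective (j s)) ∧ (∀ s, Function.Injective (k s)) ∧
      (∀ U : Subgroup Γ, (∀ s g, j s g ∈ U) → (∀ s g, k s g ∈ U) → U = ⊤) ∧
      (∀ s l, ∃ (m₁ m₂ m₃ m₄ n₁ n₂ n₃ n₄ : ℤ),
        j s t ^ m₁ * k s y * j s t ^ m₂ * (k s (a l) * j s (σ l) * (k s (b l))⁻¹) *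
          (j s t ^ m₃ * (k s y)⁻¹ * j s t ^ m₄) =
        j (!s) t ^ n₁ * k (!s) y * j (!s) t ^ n₂ * (k (!s) y * j (!s) t * (k (!s) y)⁻¹) *
          (j (!s) t ^ n₃ * (k (!s) y)⁻¹ * j (!s) t ^ n₄)) ∧
      (∀ l, ∃ (m₁ m₂ m₃ m₄ : Bool → ℤ) (B : Γ), ∀ s, B =
        j s t ^ m₁ s * k s y * j s t ^ m₂ s * (k s (c l) * j s t * (k s y)⁻¹) *
          (j s t ^ m₃ s * (k s y)⁻¹ * j s t ^ m₄ s)) ∧
      (∀ (Q : Type) [Group Q] (p : F →* Q), p y = 1 → (∀ l, p (a l) = p (b l)) →
        ∃ π : Γ →* Q, (∀ s g, π (j s g) = 1) ∧ ∀ s g, π (k s g) = p g) ∧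
      ∀ g : Γ, IsOfFinOrder g → (∃ s c, IsConj (j s c) g) ∨ ∃ s c, IsConj (k s c) g := by
  obtain ⟨Γ, _, j, k, h1, h2, h3, h4, h5, h6, h7⟩ := amalg T F PT PF t y ht hy
    (Λ := (Bool × Λ₁) ⊕ Λ₂)
    (fun s => Sum.elim (fun p => if s = p.1 then a p.2 else y) c)
    (fun s => Sum.elim (fun p => if s = p.1 then b p.2 else y) fun _ => y)
    (fun s => Sum.elim (fun p => if s = p.1 then σ p.2 else t) fun _ => t)
    (by
      rintro s (p | l)
      · simp only [Sum.elim_inl]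
        split_ifs
        · exact ha _
        · exact hy
      · exact hc l)
    (by
      rintro s (p | l)
      · simp only [Sum.elim_inl]
        split_ifs
        · exact hb _
        · exact hy
      · exact hy)
    (by
      rintro s (p | l)
      · simp only [Sum.elim_inl]
        split_ifs
        · exact hσ _
        · exact Or.inl rfl
      · exact Or.inl rfl)
  refine ⟨Γ, inferInstance, j, k, h1, h2, h3, h4, ?_, fun l => h5 (Sum.inr l), ?_, h7⟩
  · intro s l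
    obtain ⟨m₁, m₂, m₃, m₄, B, hB⟩ := h5 (Sum.inl (s, l))
    refine ⟨m₁ s, m₂ s, m₃ s, m₄ s, m₁ (!s), m₂ (!s), m₃ (!s), m₄ (!s), ?_⟩
    have e1 := hB s
    have e2 := hB (!s)
    have e3 : ¬ (!s) = s := by cases s <;> simp
    simp only [Sum.elim_inl, if_true, if_neg e3] at e1 e2
    exact e1.symm.trans e2
  · intro Q _ p hp h
    refine h6 Q p hp ?_
    rintro (⟨_ | _, l⟩ | l)
    · simp [h l]
    · simp [h l]
    · rfl

/-- the standard presentation of a free group -/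
def freePres (X : Type) [Fintype X] : LinPres (FreeGroup X) where
  L := X
  fin := inferInstance
  gen := FreeGroup.of
  R := ∅
  A := 0
  finR := Set.finite_empty
  rel := fun _ h => h.elim
  surj := fun g => ⟨g, FreeGroup.lift_of_apply g⟩
  area := fun u hu => by
    rw [FreeGroup.lift_of_apply] at hu
    rw [hu]
    exact (Eqv.refl _).mono (Nat.zero_le _)

/-- a letter -/
def lt {X : Type} (e : X × Bool) : FreeGroup (Option X) :=
  cond e.2 (FreeGroup.of (some e.1)) (FreeGroup.of (some e.1))⁻¹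

theorem lt_ne {X : Type} (e : X × Bool) : lt e ≠ 1 := by
  obtain ⟨x, _ | _⟩ := e
  · exact inv_ne_one.2 (FreeGroup.of_ne_one _)
  · exact FreeGroup.of_ne_one _

theorem top_of_gen {X Γ : Type} [Group Γ] (k : FreeGroup X →* Γ) (U : Subgroup Γ)
    (h : ∀ x, k (FreeGroup.of x) ∈ U) (g : FreeGroup X) : k g ∈ U := by
  induction g using FreeGroup.induction_on with
  | C1 => rw [map_one]; exact one_mem _
  | of x => exact h x
  | inv_of x hx => rw [map_inv]; exact inv_mem hx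
  | mul u v hu hv => rw [map_mul]; exact mul_mem hu hv

theorem rips (T : Type) [Group T] (PT : LinPres T) (t : T) (ht : ¬ IsOfFinOrder t) (Q : Type)
    [Group Q] (hQ : Group.IsFinitelyPresented Q) :
    ∃ (Γ : Type) (_ : Group Γ) (π : Γ →* Q) (j : Bool → T →* π.ker), Nonempty (LinPres Γ) ∧
      Function.Surjective π ∧ π.ker.FG ∧ (∀ s, Function.Injective (j s)) ∧
      (∀ D : Subgroup π.ker, D.Normal → (∀ s g, j s g ∈ D) → D = ⊤) ∧
      ∀ g : Γ, IsOfFinOrder g → ∃ s c, IsConj (j s c : Γ) g := by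
  classical
  obtain ⟨n, φ, hφ, R, hR, hker⟩ := hQ.out
  haveI : Finite R := hR
  letI := PT.fin
  let y : FreeGroup (Option (Fin n)) := FreeGroup.of none
  have hy : y ≠ 1 := FreeGroup.of_ne_one _
  let ι : FreeGroup (Fin n) →* FreeGroup (Option (Fin n)) := FreeGroup.map some
  obtain ⟨Γ, _, j, k, h1, h2, h3, h4, h5, h6, h7, h8⟩ := amalg2 T (FreeGroup (Option (Fin n))) PT
    (freePres _) t y ht hy (Λ₁ := ((Fin n × Bool) × PT.L) ⊕ (Fin n × Bool) ⊕ R ⊕ Unit)
    (Λ₂ := Fin n × Bool)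
    (Sum.elim (fun p => lt p.1) (Sum.elim (fun e => lt e * y * (lt e)⁻¹)
      (Sum.elim (fun r => if ι r = 1 then y else ι r) fun _ => y * y)))
    (Sum.elim (fun p => lt p.1) fun _ => y)
    (Sum.elim (fun p => if PT.gen p.2 ∈ Subgroup.zpowers t then t else PT.gen p.2) fun _ => t) lt
    (by
      rintro (p | e | r | _)
      · exact lt_ne _
      · simpa using hy
      · simp only [Sum.elim_inl, Sum.elim_inr]
        split_ifs with h
        · exact hy
        · exact h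
      · intro h
        exact hy ((pow_eq_one_iff_left (n := 2) (by simp)).1 (by rw [pow_two]; exact h)))
    (by
      rintro (p | _)
      · exact lt_ne _
      · exact hy)
    lt_ne
    (by
      rintro (p | _)
      · simp only [Sum.elim_inl]
        split_ifs with h
        · exact Or.inl rfl
        · exact Or.inr h
      · exact Or.inl rfl)
  let p : FreeGroup (Option (Fin n)) →* Q :=
    FreeGroup.lift fun o => o.elim 1 fun x => φ (FreeGroup.of x)
  have py : p y = 1 := FreeGroup.lift_apply_of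
  have pι : ∀ w, p (ι w) = φ w := by
    have : p.comp ι = φ := by
      ext x
      simp [p, ι]
    exact DFunLike.congr_fun this
  obtain ⟨π, π1, π2⟩ := h7 Q p py (by
    rintro (q | e | r | _)
    · rfl
    · simp [py]
    · simp only [Sum.elim_inl, Sum.elim_inr]
      split_ifs with h
      · rfl
      · rw [pι, py]
        have : r.1 ∈ φ.ker := by rw [← hker]; exact Subgroup.subset_normalClosure r.2
        exact this
    · simp [py])
  let G₀ : Set Γ := Set.range (fun q : Bool × PT.L => j q.1 (PT.gen q.2)) ∪ Set.range fun s => k s y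
  let N : Subgroup Γ := Subgroup.closure G₀
  have jU : ∀ (U : Subgroup Γ) s, (∀ l, j s (PT.gen l) ∈ U) → ∀ g, j s g ∈ U := by
    intro U s h g
    obtain ⟨w, rfl⟩ := PT.surj g
    exact top_of_gen ((j s).comp (FreeGroup.lift PT.gen)) U (fun l => by simpa using h l) w
  have jN : ∀ s g, j s g ∈ N := fun s =>
    jU N s fun l => Subgroup.subset_closure (Or.inl ⟨(s, l), rfl⟩)
  have yN : ∀ s, k s y ∈ N := fun s => Subgroup.subset_closure (Or.inr ⟨s, rfl⟩)
  have NU : ∀ U : Subgroup Γ, (∀ s g, j s g ∈ U) → (∀ s, k s y ∈ U) → N ≤ U := by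
    intro U a1 a2
    rw [Subgroup.closure_le]
    rintro _ (⟨q, rfl⟩ | ⟨s, rfl⟩)
    · exact a1 _ _
    · exact a2 _
  have uU : ∀ (U : Subgroup Γ) s, j s t ∈ U → k s y ∈ U → ∀ m₁ m₂ : ℤ,
      j s t ^ m₁ * k s y * j s t ^ m₂ ∈ U ∧ j s t ^ m₁ * (k s y)⁻¹ * j s t ^ m₂ ∈ U :=
    fun U s a1 a2 m₁ m₂ => ⟨mul_mem (mul_mem (zpow_mem a1 _) a2) (zpow_mem a1 _),
      mul_mem (mul_mem (zpow_mem a1 _) (inv_mem a2)) (zpow_mem a1 _)⟩
  have one : ∀ s {u : Γ} {m₁ m₂ m₃ m₄ n₁ n₂ n₃ n₄ : ℤ},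
      j s t ^ m₁ * k s y * j s t ^ m₂ * u * (j s t ^ m₃ * (k s y)⁻¹ * j s t ^ m₄) =
        j (!s) t ^ n₁ * k (!s) y * j (!s) t ^ n₂ * (k (!s) y * j (!s) t * (k (!s) y)⁻¹) *
          (j (!s) t ^ n₃ * (k (!s) y)⁻¹ * j (!s) t ^ n₄) → u ∈ N := by
    intro s u m₁ m₂ m₃ m₄ n₁ n₂ n₃ n₄ h
    rw [← N.mul_mem_cancel_left (uU N s (jN _ _) (yN _) m₁ m₂).1,
      ← N.mul_mem_cancel_right (uU N s (jN _ _) (yN _) m₃ m₄).2, h]
    exact mul_mem (mul_mem (uU N _ (jN _ _) (yN _) _ _).1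
      (mul_mem (mul_mem (yN _) (jN _ _)) (inv_mem (yN _)))) (uU N _ (jN _ _) (yN _) _ _).2
  have single : ∀ s {c : FreeGroup (Option (Fin n))}, k s c * j s t * (k s y)⁻¹ ∈ N → k s c ∈ N := by
    intro s c h
    rwa [N.mul_mem_cancel_right (inv_mem (yN s)), N.mul_mem_cancel_right (jN s t)] at h
  let C : Γ → Subgroup Γ := fun g => N.comap (MulAut.conj g).toMonoidHom
  have mC : ∀ g x, x ∈ C g ↔ g * x * g⁻¹ ∈ N := fun g x => Iff.rfl
  have c1 : ∀ s e g, j s g ∈ C (k s (lt e)) := by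
    intro s e
    refine jU _ s fun l => ?_
    obtain ⟨_, _, _, _, _, _, _, _, h⟩ := h5 s (Sum.inl (e, l))
    have h' := one s h
    simp only [Sum.elim_inl] at h'
    split_ifs at h' with hl
    · obtain ⟨m, hm⟩ := hl
      rw [← hm]
      show j s (t ^ m) ∈ _
      rw [map_zpow]
      exact zpow_mem ((mC _ _).2 h') m
    · exact (mC _ _).2 h'
  have c2 : ∀ s e, k s y ∈ C (k s (lt e)) := by
    intro s e
    obtain ⟨_, _, _, _, _, _, _, _, h⟩ := h5 s (Sum.inr (Sum.inl e))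
    have h' := single s (one s h)
    simp only [Sum.elim_inl, Sum.elim_inr, map_mul, map_inv] at h'
    exact (mC _ _).2 h'
  have two : ∀ e, ∃ B : Γ, ∀ s, ∃ u ∈ N, ∃ v ∈ N, v ∈ C (k s (lt e)) ∧ B = u * k s (lt e) * v := by
    intro e
    obtain ⟨m₁, m₂, m₃, m₄, B, hB⟩ := h6 e
    refine ⟨B, fun s => ⟨_, (uU N s (jN _ _) (yN _) (m₁ s) (m₂ s)).1,
      j s t * (k s y)⁻¹ * (j s t ^ m₃ s * (k s y)⁻¹ * j s t ^ m₄ s), ?_, ?_, ?_⟩⟩
    · exact mul_mem (mul_mem (jN _ _) (inv_mem (yN _))) (uU N s (jN _ _) (yN _) _ _).2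
    · exact mul_mem (mul_mem (c1 _ _ _) (inv_mem (c2 _ _))) (uU _ s (c1 _ _ _) (c2 _ _) _ _).2
    · rw [hB s]
      simp only [mul_assoc]
  have c3 : ∀ s e, N ≤ C (k s (lt e)) := by
    intro s e
    obtain ⟨B, hB⟩ := two e
    have b1 : ∀ s x, x ∈ C (k s (lt e)) → x ∈ C B := by
      intro s x hx
      obtain ⟨u, hu, v, _, hv, rfl⟩ := hB s
      have := (mC _ _).1 (mul_mem (mul_mem hv hx) (inv_mem hv))
      rw [mC, show u * k s (lt e) * v * x * (u * k s (lt e) * v)⁻¹ =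
        u * (k s (lt e) * (v * x * v⁻¹) * (k s (lt e))⁻¹) * u⁻¹ by group]
      exact mul_mem (mul_mem hu this) (inv_mem hu)
    have b2 : N ≤ C B := NU _ (fun s g => b1 s _ (c1 _ _ _)) fun s => b1 s _ (c2 _ _)
    intro x hx
    obtain ⟨u, hu, v, hv, _, rfl⟩ := hB s
    have := (mC _ _).1 (b2 (mul_mem (mul_mem (inv_mem hv) hx) hv))
    rw [mC, show k s (lt e) * x * (k s (lt e))⁻¹ =
      u⁻¹ * (u * k s (lt e) * v * (v⁻¹ * x * v) * (u * k s (lt e) * v)⁻¹) * u by group]
    exact mul_mem (mul_mem (inv_mem hu) this) hu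
  haveI hN : N.Normal := by
    rw [← Subgroup.normalizer_eq_top_iff]
    refine h4 _ (fun s g => Subgroup.le_normalizer (jN s g)) fun s => top_of_gen _ _ ?_
    rintro (_ | x)
    · exact Subgroup.le_normalizer (yN s)
    · rw [Subgroup.mem_normalizer_iff]
      intro h
      refine ⟨fun hh => (mC _ _).1 (c3 s (x, true) hh), fun hh => ?_⟩
      have := (mC _ _).1 (c3 s (x, false) hh)
      simpa [lt, mul_assoc] using this
  let q := QuotientGroup.mk' N
  have hq : ∀ g, q g = 1 ↔ g ∈ N := fun g => QuotientGroup.eq_one_iff g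
  let θ : FreeGroup (Fin n) →* Γ ⧸ N := (q.comp (k true)).comp ι
  have θR : φ.ker ≤ θ.ker := by
    rw [← hker]
    refine Subgroup.normalClosure_le_normal fun r hr => ?_
    obtain ⟨_, _, _, _, _, _, _, _, h⟩ := h5 true (Sum.inr (Sum.inr (Sum.inl ⟨r, hr⟩)))
    have h' := single true (one true h)
    simp only [Sum.elim_inl, Sum.elim_inr] at h'
    show q (k true (ι r)) = 1
    split_ifs at h' with hl
    · rw [hl, map_one, map_one]
    · exact (hq _).2 h'
  have hker2 : π.ker = N := by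
    apply le_antisymm
    · let U : Subgroup Γ := (⊤ : Subgroup (FreeGroup (Fin n))).map (θ.prod φ) |>.comap (q.prod π)
      have hU : U = ⊤ := by
        refine h4 U (fun s g => ⟨1, trivial, ?_⟩) fun s => top_of_gen _ _ ?_
        · rw [map_one]
          exact (Prod.ext ((hq _).2 (jN s g)) (π1 s g)).symm
        rintro (_ | x)
        · refine ⟨1, trivial, ?_⟩
          rw [map_one]
          exact (Prod.ext ((hq _).2 (yN s)) ((π2 s _).trans py)).symm
        · refine ⟨FreeGroup.of x, trivial, Prod.ext ?_ ?_⟩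
          · obtain ⟨B, hB⟩ := two (x, true)
            have b1 : ∀ s, q B = q (k s (FreeGroup.of (some x))) := by
              intro s
              obtain ⟨u, hu, v, hv, _, rfl⟩ := hB s
              rw [map_mul, map_mul, (hq _).2 hu, (hq _).2 hv, one_mul, mul_one]
              rfl
            exact (b1 true).symm.trans (b1 s)
          · exact ((π2 s _).trans (pι (FreeGroup.of x))).symm
      intro g hg
      obtain ⟨w, _, hw⟩ : g ∈ U := by rw [hU]; trivial
      have w1 : φ w = 1 := (congrArg Prod.snd hw).trans hg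
      have w2 : θ w = q g := congrArg Prod.fst hw
      exact (hq g).1 (w2.symm.trans (θR w1))
    · exact NU _ π1 fun s => (π2 s _).trans py
  have yK : ∀ s, k s y ∈ π.ker := fun s => (π2 s _).trans py
  refine ⟨Γ, inferInstance, π, fun s => (j s).codRestrict π.ker (π1 s), h1, ?_, ?_, ?_, ?_, ?_⟩
  · intro x
    obtain ⟨w, rfl⟩ := hφ x
    exact ⟨k true (ι w), (π2 _ _).trans (pι w)⟩
  · rw [hker2]
    exact (Subgroup.fg_iff _).2 ⟨G₀, rfl, (Set.finite_range _).union (Set.finite_range _)⟩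
  · intro s u v h
    exact h2 s (congrArg Subtype.val h)
  · intro D hD hj
    let f := QuotientGroup.mk' D
    have hf : ∀ g, f g = 1 ↔ g ∈ D := fun g => QuotientGroup.eq_one_iff g
    have yD : ∀ s, (⟨k s y, yK s⟩ : π.ker) ∈ D := by
      intro s
      obtain ⟨m₁, m₂, m₃, m₄, n₁, n₂, n₃, n₄, h⟩ := h5 s (Sum.inr (Sum.inr (Sum.inr ())))
      simp only [Sum.elim_inr, map_mul] at h
      let J : Bool → π.ker := fun s => ⟨j s t, π1 s t⟩
      let Y : Bool → π.ker := fun s => ⟨k s y, yK s⟩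
      have e : J s ^ m₁ * Y s * J s ^ m₂ * (Y s * Y s * J s * (Y s)⁻¹) *
          (J s ^ m₃ * (Y s)⁻¹ * J s ^ m₄) = J (!s) ^ n₁ * Y (!s) * J (!s) ^ n₂ *
          (Y (!s) * J (!s) * (Y (!s))⁻¹) * (J (!s) ^ n₃ * (Y (!s))⁻¹ * J (!s) ^ n₄) :=
        Subtype.ext (by simpa only [Subgroup.coe_mul, Subgroup.coe_inv, SubgroupClass.coe_zpow] using h)
      have e2 := congrArg f e
      have e3 : ∀ s, f (J s) = 1 := fun s => (hf _).2 (hj s t)
      simp only [map_mul, map_zpow, map_inv, e3, one_zpow, one_mul, mul_one,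
        mul_inv_cancel_right, mul_inv_cancel] at e2
      exact (hf _).1 e2
    have := NU (D.map π.ker.subtype) (fun s g => ⟨_, hj s g, rfl⟩) fun s => ⟨_, yD s, rfl⟩
    rw [eq_top_iff]
    intro g _
    obtain ⟨d, hd, e⟩ := this (hker2.le g.2)
    have e' : d = g := Subtype.ext e
    rwa [← e']
  · intro g hg
    rcases h8 g hg with h | ⟨s, c, h⟩
    · exact h
    · have h' : c = 1 := ((h3 s).isOfFinOrder_iff.1 (h.symm.isOfFinOrder hg)).eq_one'
      exact ⟨s, 1, by rw [map_one]; rwa [h', map_one] at h⟩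

end Vale.Agent.N186X
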