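import Mathlib.Topology.Algebra.Category.ProfiniteGrp.Completion
import Vale.Agent.N186.Final
import Vale.Agent.N186X.Defs
import Vale.Agent.N186X.Rips

/-! Every finitely presented group is the quotient of a hyperbolic group by a finitely generated
normal subgroup without finite quotients. -/

set_option linter.all false

namespace Vale.Agent.N186X

open Monoid CategoryTheory Vale.Agent.N186 Vale.Agent.P186 Vale.Agent.P194

universe u v

theorem wh_iff (G : Type) [Group G] : WordHyperbolic G ↔ IsHyperbolicGroup G := by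
  constructor
  · rintro ⟨S, δ, hS, h⟩
    refine ⟨S, hS, δ, fun x y z p q r hp hq hr v hv => ?_⟩
    obtain ⟨w, hw, hd⟩ := h x y z _ _ _ ⟨p, hp, rfl⟩ ⟨q, hq, rfl⟩ ⟨r, hr, rfl⟩ v hv
    exact ⟨w, hw, hd⟩
  · rintro ⟨S, hS, δ, h⟩
    refine ⟨S, δ, hS, ?_⟩
    rintro x y z _ _ _ ⟨p, hp, rfl⟩ ⟨q, hq, rfl⟩ ⟨r, hr, rfl⟩ v hv
    obtain ⟨w, hw, hd⟩ := h x y z p q r hp hq hr v hv
    exact ⟨w, hw, hd⟩

theorem edist_hom {V W : Type} {A : SimpleGraph V} {B : SimpleGraph W} (f : A →g B) (u v : V) :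
    B.edist (f u) (f v) ≤ A.edist u v :=
  le_iInf fun w => iInf_le_of_le (w.map f) (by simp)

theorem dist_iso {V W : Type} {A : SimpleGraph V} {B : SimpleGraph W} (f : A ≃g B) (u v : V) :
    B.dist (f u) (f v) = A.dist u v := by
  have h1 := edist_hom f.toHom u v
  have h2 := edist_hom f.symm.toHom (f u) (f v)
  have h3 : B.edist (f u) (f v) = A.edist u v := le_antisymm h1 (by simpa using h2)
  unfold SimpleGraph.dist
  rw [h3]

theorem thin_iso {V W : Type} {A : SimpleGraph V} {B : SimpleGraph W} (f : A ≃g B) {δ : ℕ}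
    (h : ThinTriangles B δ) : ThinTriangles A δ := by
  intro x y z p q r hp hq hr v hv
  obtain ⟨w, hw, hd⟩ := h (f x) (f y) (f z) (p.map f.toHom) (q.map f.toHom) (r.map f.toHom)
    (by rw [SimpleGraph.Walk.length_map, dist_iso, hp])
    (by rw [SimpleGraph.Walk.length_map, dist_iso, hq])
    (by rw [SimpleGraph.Walk.length_map, dist_iso, hr]) (f v)
    (by rw [SimpleGraph.Walk.support_map]; exact List.mem_map_of_mem hv)
  simp only [SimpleGraph.Walk.support_map, List.mem_map] at hw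
  rcases hw with ⟨w', hw, rfl⟩ | ⟨w', hw, rfl⟩
  · exact ⟨w', Or.inl hw, by rwa [← dist_iso f]⟩
  · exact ⟨w', Or.inr hw, by rwa [← dist_iso f]⟩

theorem hyp_equiv {H Γ : Type} [Group H] [Group Γ] (e : H ≃* Γ) (h : IsHyperbolicGroup H) :
    IsHyperbolicGroup Γ := by
  obtain ⟨S, hS, δ, h⟩ := h
  refine ⟨S.map e.toEquiv.toEmbedding, ?_, δ, thin_iso (B := SimpleGraph.mulCayley (S : Set H))
    ⟨e.symm.toEquiv, ?_⟩ h⟩
  · have := MonoidHom.map_closure e.toMonoidHom (S : Set H)
    rw [hS, Subgroup.map_top_of_surjective _ e.surjective] at this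
    rw [Finset.coe_map]
    exact this.symm
  · intro a b
    obtain ⟨a, rfl⟩ := e.surjective a
    obtain ⟨b, rfl⟩ := e.surjective b
    simp [SimpleGraph.mulCayley_adj, ← map_inv, ← map_mul]

theorem hyp_of_linPres {Γ : Type} [Group Γ] (P : LinPres Γ) : IsHyperbolicGroup Γ := by
  obtain ⟨H, _, hH, ⟨e⟩⟩ := P.exists_hyp
  exact hyp_equiv e hH

theorem fp_of_linPres {Γ : Type} [Group Γ] (P : LinPres Γ) : Group.IsFinitelyPresented Γ := by
  letI := P.fin
  refine Group.IsFinitelyPresented.of_surjective (FreeGroup.lift P.gen) P.surj ⟨P.R, P.finR, ?_⟩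
  apply le_antisymm
  · exact Subgroup.normalClosure_le_normal fun r hr => P.rel r hr
  · intro u hu
    obtain ⟨u, rfl⟩ := Quot.exists_rep u
    obtain ⟨j, hj, h⟩ := P.area u hu
    have h2 := ar_normal h
    simp only [inv_one, mul_one] at h2
    exact h2

open ProfiniteGrp ProfiniteGrp.ProfiniteCompletion in
theorem iso_completion {H Q : Type} [Group H] [Group Q] (π : H →* Q) (hπ : Function.Surjective π)
    (h : ∀ U : Subgroup H, U.FiniteIndex → π.ker ≤ U) :
    IsIso (profiniteCompletion.map (GrpCat.ofHom π)) := by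
  have h1 : π.ker ≤ (eta (GrpCat.of H)).hom.ker := by
    intro g hg
    refine Subtype.ext (funext fun U => ?_)
    exact (QuotientGroup.eq_one_iff g).2 (h _ inferInstance hg)
  let ψ : Q →* completion (GrpCat.of H) := π.liftOfSurjective hπ ⟨_, h1⟩
  have h2 : GrpCat.ofHom π ≫ GrpCat.ofHom ψ = eta (GrpCat.of H) := by
    ext g
    exact π.liftOfRightInverse_comp_apply _ (Function.rightInverse_surjInv hπ) ⟨_, h1⟩ g
  have h3 : eta (GrpCat.of H) ≫ (forget₂ _ _).map (profiniteCompletion.map (GrpCat.ofHom π)) =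
      GrpCat.ofHom π ≫ eta (GrpCat.of Q) := lift_eta _
  have h4 : eta (GrpCat.of Q) ≫ (forget₂ _ _).map (lift (P := completion (GrpCat.of H))
      (GrpCat.ofHom ψ)) = GrpCat.ofHom ψ := lift_eta _
  haveI : Epi (GrpCat.ofHom π) := (GrpCat.epi_iff_surjective _).2 hπ
  refine ⟨lift (P := completion (GrpCat.of H)) (GrpCat.ofHom ψ), ?_, ?_⟩
  · apply lift_unique
    erw [Functor.map_comp, ← Category.assoc, h3, Category.assoc, h4, h2]
    rfl
  · apply lift_unique
    rw [← cancel_epi (GrpCat.ofHom π)]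
    erw [Functor.map_comp, ← Category.assoc (eta _), h4, ← Category.assoc, h2, h3]
    rfl

theorem base (K : Type) [Group K] (hK : IsHyperbolicGroup K) :
    ∃ (T : Type) (_ : Group T) (i : K →* T) (t : T), IsHyperbolicGroup T ∧ Function.Injective i ∧
      ¬ IsOfFinOrder t ∧
      (∀ (A : Type u) [Group A], IsSofic A → ∀ (f : T →* A) (g : T), f g = 1) ∧
      (∀ (k : Type v) [Field k] (n : ℕ) (f : T →* Matrix.GeneralLinearGroup (Fin n) k) (g : T),
        f g = 1) ∧
      ∀ g : T, IsOfFinOrder g → ∃ a : K, orderOf a = orderOf g := by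
  obtain ⟨G, _, _, hG, _, _, _, hs, hl, htf⟩ := main2.{u, v} PUnit hyp_of_finite
  have htf' : ∀ a : G, IsOfFinOrder a → a = 1 := fun a ha => by
    obtain ⟨b, hb⟩ := htf a ha
    rw [Subsingleton.elim b 1, orderOf_one] at hb
    exact orderOf_eq_one_iff.1 hb.symm
  obtain ⟨g, hg1⟩ := exists_ne (1 : G)
  have hg : ¬ IsOfFinOrder g := fun h => hg1 (htf' g h)
  obtain ⟨H, _, j, j', hH, h1, h2, h3, h4⟩ := embed K G hK hG g hg
  refine ⟨H, inferInstance, j true, j' (true, true) g, hH, h1 true,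
    fun h => hg ((h2 _).isOfFinOrder_iff.1 h), ?_, ?_, ?_⟩
  · intro A _ hA f h
    have := h3 f.ker inferInstance fun s => hs A hA (f.comp (j' s)) g
    exact MonoidHom.mem_ker.1 (by rw [this]; trivial)
  · intro k _ n f h
    have := h3 f.ker inferInstance fun s => hl k n (f.comp (j' s)) g
    exact MonoidHom.mem_ker.1 (by rw [this]; trivial)
  · intro h hh
    rcases h4 h hh with ⟨s, a, h5⟩ | ⟨s, a, h5⟩
    · exact ⟨a, by rw [← orderOf_isConj h5, orderOf_injective _ (h1 s)]⟩
    · have h6 : a = 1 := htf' a ((h2 s).isOfFinOrder_iff.1 (h5.symm.isOfFinOrder hh))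
      exact ⟨1, by rw [← orderOf_isConj h5, h6, map_one, orderOf_one, orderOf_one]⟩

theorem no_finite_index {N : Type} [Group N]
    (hsof : ∀ (A : Type u) [Group A], IsSofic A → ∀ (f : N →* A) (g : N), f g = 1)
    (U : Subgroup N) (hU : U.FiniteIndex) : U = ⊤ := by
  rw [eq_top_iff]
  intro h _
  apply U.normalCore_le
  have h5 := hsof (ULift.{u} (N ⧸ U.normalCore)) H570.isSofic_of_finite
    (MulEquiv.ulift.symm.toMonoidHom.comp (QuotientGroup.mk' U.normalCore)) h
  have h6 : QuotientGroup.mk' U.normalCore h = 1 := MulEquiv.ulift.symm.map_eq_one_iff.1 h5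
  exact (QuotientGroup.eq_one_iff h).1 h6

theorem core (K : Type) [Group K] (hK : IsHyperbolicGroup K) (Q : Type) [Group Q]
    (hQ : Group.IsFinitelyPresented Q) :
    ∃ (H : Type) (_ : Group H) (π : H →* Q) (i : K →* H), IsHyperbolicGroup H ∧
      Function.Injective i ∧ Function.Surjective π ∧ π.ker.FG ∧ Infinite π.ker ∧
      (∀ (A : Type u) [Group A], IsSofic A → ∀ (f : π.ker →* A) (g : π.ker), f g = 1) ∧
      (∀ (k : Type v) [Field k] (n : ℕ) (f : π.ker →* Matrix.GeneralLinearGroup (Fin n) k)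
        (g : π.ker), f g = 1) ∧
      ∀ g : H, IsOfFinOrder g → ∃ a : K, orderOf a = orderOf g := by
  obtain ⟨T, _, i, t, hT, hi, ht, hs, hl, htor⟩ := base.{u, v} K hK
  obtain ⟨PT⟩ := linPres_of_hyp hT
  obtain ⟨H, _, π, j, ⟨P⟩, h1, h2, h3, h4, h5⟩ := rips T PT t ht Q hQ
  refine ⟨H, inferInstance, π, π.ker.subtype.comp ((j true).comp i), hyp_of_linPres P,
    Subtype.val_injective.comp ((h3 true).comp hi), h1, h2, ?_, ?_, ?_, ?_⟩
  · exact Infinite.of_injective (fun n : ℤ => j true (t ^ n))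
      ((h3 _).comp (injective_zpow_iff_not_isOfFinOrder.2 ht))
  · intro A _ hA f h
    have := h4 f.ker inferInstance fun s g => hs A hA (f.comp (j s)) g
    exact MonoidHom.mem_ker.1 (by rw [this]; trivial)
  · intro k _ n f h
    have := h4 f.ker inferInstance fun s g => hl k n (f.comp (j s)) g
    exact MonoidHom.mem_ker.1 (by rw [this]; trivial)
  · intro g hg
    obtain ⟨s, c, h⟩ := h5 g hg
    have hj : Function.Injective (π.ker.subtype.comp (j s)) := Subtype.val_injective.comp (h3 s)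
    obtain ⟨a, ha⟩ := htor c (hj.isOfFinOrder_iff.1 (h.symm.isOfFinOrder hg))
    exact ⟨a, by rw [ha, ← orderOf_isConj h]; exact (orderOf_injective _ hj c).symm⟩

theorem le_of_no_index {H : Type} [Group H] {N : Subgroup H}
    (h : ∀ U : Subgroup N, U.FiniteIndex → U = ⊤) (U : Subgroup H) (hU : U.FiniteIndex) :
    N ≤ U :=
  Subgroup.subgroupOf_eq_top.1 (h (U.subgroupOf N) inferInstance)

theorem not_rf {H : Type} [Group H] {N : Subgroup H} [Infinite N]
    (h : ∀ U : Subgroup N, U.FiniteIndex → U = ⊤) : ¬ ResFinite H := by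
  intro hr
  obtain ⟨g, hg⟩ := exists_ne (1 : N)
  obtain ⟨F, _, _, φ, hφ⟩ := hr g fun e => hg (Subtype.ext e)
  exact hφ (le_of_no_index h φ.ker inferInstance g.2)

theorem rips_main (Q : Type) [Group Q] (hQ : Group.IsFinitelyPresented Q) :
    ∃ (H : Type) (_ : Group H) (π : H →* Q), WordHyperbolic H ∧
      (∀ h : H, IsOfFinOrder h → h = 1) ∧ Function.Surjective π ∧ π.ker.FG ∧ Infinite π.ker ∧
      (∀ U : Subgroup π.ker, U.FiniteIndex → U = ⊤) ∧
      (∀ (k : Type v) [Field k] (n : ℕ) (f : π.ker →* Matrix.GeneralLinearGroup (Fin n) k),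
        f = 1) ∧
      IsIso (ProfiniteGrp.profiniteCompletion.map (GrpCat.ofHom π)) := by
  obtain ⟨H, _, π, _, hH, _, h1, h2, h3, h4, h5, h6⟩ := core.{0, v} PUnit hyp_of_finite Q hQ
  refine ⟨H, inferInstance, π, (wh_iff H).2 hH, fun a ha => ?_, h1, h2, h3, no_finite_index h4,
    fun k _ n f => MonoidHom.ext (h5 k n f),
    iso_completion π h1 (le_of_no_index (no_finite_index h4))⟩
  obtain ⟨b, hb⟩ := h6 a ha
  rw [Subsingleton.elim b 1, orderOf_one] at hb
  exact orderOf_eq_one_iff.1 hb.symm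

theorem rips_exact (Q : Type) [Group Q] (hQ : Group.IsFinitelyPresented Q) :
    ∃ (N H : Type) (_ : Group N) (_ : Group H) (ι : N →* H) (π : H →* Q), WordHyperbolic H ∧
      (∀ h : H, IsOfFinOrder h → h = 1) ∧
      Function.Injective ι ∧ ι.range = π.ker ∧ Function.Surjective π ∧
      Group.FG N ∧ Infinite N ∧ (∀ U : Subgroup N, U.FiniteIndex → U = ⊤) ∧
      (∀ (k : Type v) [Field k] (n : ℕ) (f : N →* Matrix.GeneralLinearGroup (Fin n) k) (g : N),
        f g = 1) ∧
      IsIso (ProfiniteGrp.profiniteCompletion.map (GrpCat.ofHom π)) := by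
  obtain ⟨H, _, π, h1, h2, h3, h4, h5, h6, h7, h8⟩ := rips_main.{v} Q hQ
  exact ⟨π.ker, H, inferInstance, inferInstance, π.ker.subtype, π, h1, h2, Subtype.val_injective,
    π.ker.range_subtype, h3, (Group.fg_iff_subgroup_fg _).2 h4, h5, h6,
    fun k _ n f g => by rw [h7 k n f]; rfl, h8⟩

theorem main1 : ¬ ∀ (G : Type) [Group G], WordHyperbolic G → ResFinite G := by
  obtain ⟨H, _, π, hH, _, _, _, _, h, _⟩ := rips_main.{0} PUnit inferInstance
  exact fun hh => not_rf h (hh H hH)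

theorem genus (Q : Type) [Group Q] (hQ : Group.IsFinitelyPresented Q) :
    ∃ (H : ℕ → Type) (_ : ∀ n, Group (H n)), (∀ m n, Nonempty (H m ≃* H n) → m = n) ∧
      ∀ n, WordHyperbolic (H n) ∧ ¬ ResFinite (H n) ∧
        Nonempty (ProfiniteGrp.profiniteCompletion.obj (GrpCat.of (H n)) ≅
          ProfiniteGrp.profiniteCompletion.obj (GrpCat.of Q)) := by
  choose H inst π i hH hi h1 h2 h3 h4 h5 h6 using fun n : ℕ =>
    core.{0, 0} (Multiplicative (ZMod (n + 1))) hyp_of_finite Q hQ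
  have key : ∀ m n, Nonempty (H m ≃* H n) → m ≤ n := by
    rintro m n ⟨e⟩
    have o1 : orderOf (e (i m (Multiplicative.ofAdd 1))) = m + 1 := by
      rw [e.orderOf_eq, orderOf_injective _ (hi m), orderOf_ofAdd_eq_addOrderOf, ZMod.addOrderOf_one]
    obtain ⟨a, ha⟩ := h6 n (e (i m (Multiplicative.ofAdd 1))) (orderOf_pos_iff.1 (by omega))
    have o2 : orderOf a ≤ Fintype.card (Multiplicative (ZMod (n + 1))) := orderOf_le_card_univ
    rw [Fintype.card_multiplicative, ZMod.card] at o2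
    omega
  refine ⟨H, inst, fun m n ⟨e⟩ => le_antisymm (key m n ⟨e⟩) (key n m ⟨e.symm⟩), fun n => ?_⟩
  haveI := h3 n
  haveI := iso_completion (π n) (h1 n) (le_of_no_index (no_finite_index (h4 n)))
  exact ⟨(wh_iff _).2 (hH n), not_rf (no_finite_index (h4 n)),
    ⟨asIso (ProfiniteGrp.profiniteCompletion.map (GrpCat.ofHom (π n)))⟩⟩

theorem fp_of_wh (G : Type) [Group G] (h : WordHyperbolic G) : Group.IsFinitelyPresented G := by
  obtain ⟨P⟩ := linPres_of_hyp ((wh_iff G).1 h)
  exact fp_of_linPres P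

end Vale.Agent.N186X
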